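import Mathlib
import Vale.Agent.P260.H493.Spec

/-!
# P260 climb, module M2 (part 1): finite presentation of kernels; the augmentation ideal
-/

namespace Vale.Agent.P260.H838

open Vale.Agent.P260.H493

section fp

variable {R : Type*} [Ring R] {K M F0 F1 F2 : Type*} [AddCommGroup K] [Module R K]
  [AddCommGroup M] [Module R M] [AddCommGroup F0] [Module R F0] [AddCommGroup F1] [Module R F1]
  [AddCommGroup F2] [Module R F2]

/-- Schanuel's lemma in the form needed. -/
theorem ker_fp [Module.Finite R M] [Module.Projective R M] [Module.Projective R F0]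
    [Module.Finite R F1] [Module.Projective R F1] [Module.Finite R F2]
    (d1 : F2 →ₗ[R] F1) (d0 : F1 →ₗ[R] F0) (e : F0 →ₗ[R] K) (he : Function.Surjective e)
    (h0 : ∀ v, e v = 0 ↔ ∃ w, d0 w = v) (h1 : ∀ v, d0 v = 0 ↔ ∃ w, d1 w = v)
    (p : M →ₗ[R] K) (hp : Function.Surjective p) :
    Module.FinitePresentation R (LinearMap.ker p) := by
  -- the kernel of `e`
  have hB : Module.FinitePresentation R (LinearMap.ker e) := by
    have hF1 : Module.FinitePresentation R F1 := Module.finitePresentation_of_projective R F1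
    let g : F1 →ₗ[R] LinearMap.ker e := LinearMap.codRestrict _ d0 fun w =>
      LinearMap.mem_ker.2 ((h0 _).2 ⟨w, rfl⟩)
    refine Module.finitePresentation_of_surjective g ?_ ?_
    · rintro ⟨v, hv⟩
      obtain ⟨w, hw⟩ := (h0 v).1 (LinearMap.mem_ker.1 hv)
      exact ⟨w, Subtype.ext hw⟩
    · have : LinearMap.ker g = LinearMap.range d1 := by
        rw [LinearMap.ker_codRestrict]
        ext v
        rw [LinearMap.mem_ker, LinearMap.mem_range]
        exact h1 v
      rw [this]
      exact Submodule.fg_range d1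
  -- the pullback
  let X : Submodule R (F0 × M) :=
    LinearMap.ker (e ∘ₗ LinearMap.fst R F0 M - p ∘ₗ LinearMap.snd R F0 M)
  have hX : ∀ x : F0 × M, x ∈ X ↔ e x.1 = p x.2 := by
    intro x
    simp only [X, LinearMap.mem_ker, LinearMap.sub_apply, LinearMap.comp_apply,
      LinearMap.fst_apply, LinearMap.snd_apply, sub_eq_zero]
  have hXfp : Module.FinitePresentation R X := by
    have hM : Module.FinitePresentation R M := Module.finitePresentation_of_projective R M
    let s : X →ₗ[R] M := LinearMap.snd R F0 M ∘ₗ X.subtype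
    have hs : Function.Surjective s := by
      intro y
      obtain ⟨v, hv⟩ := he (p y)
      exact ⟨⟨(v, y), (hX _).2 hv⟩, rfl⟩
    let i : LinearMap.ker e →ₗ[R] LinearMap.ker s :=
      LinearMap.codRestrict _ (LinearMap.codRestrict X
        (LinearMap.inl R F0 M ∘ₗ (LinearMap.ker e).subtype) (fun v => by
          rw [hX]
          simp)) (fun v => by
          rw [LinearMap.mem_ker]
          rfl)
    have hi : Function.Bijective i := by
      constructor
      · intro v w h
        have := congrArg (fun x : LinearMap.ker s => x.1.1.1) h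
        exact Subtype.ext this
      · rintro ⟨⟨⟨v, y⟩, hx⟩, hy⟩
        have hy' : y = 0 := LinearMap.mem_ker.1 hy
        subst hy'
        have hv : e v = 0 := by simpa using (hX _).1 hx
        exact ⟨⟨v, LinearMap.mem_ker.2 hv⟩, rfl⟩
    let E : LinearMap.ker e ≃ₗ[R] LinearMap.ker s := LinearEquiv.ofBijective i hi
    have : Module.FinitePresentation R (LinearMap.ker s) :=
      @Module.FinitePresentation.of_equiv R (LinearMap.ker e) (LinearMap.ker s) _ _ _ _ _ E hB
    exact Module.finitePresentation_of_ker s hs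
  let f : LinearMap.ker p →ₗ[R] X := LinearMap.codRestrict X
    (LinearMap.inr R F0 M ∘ₗ (LinearMap.ker p).subtype) (fun v => by
      rw [hX]
      simp)
  let g : X →ₗ[R] F0 := LinearMap.fst R F0 M ∘ₗ X.subtype
  refine Module.finitePresentation_of_projective_of_exact f g ?_ ?_ ?_
  · intro v w h
    have := congrArg (fun x : X => x.1.2) h
    exact Subtype.ext this
  · intro v
    obtain ⟨y, hy⟩ := hp (e v)
    exact ⟨⟨(v, y), (hX _).2 hy.symm⟩, rfl⟩
  · rintro ⟨⟨v, y⟩, hx⟩
    constructor
    · intro h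
      have hv : v = 0 := h
      subst hv
      have hy : p y = 0 := by simpa using ((hX _).1 hx).symm
      exact ⟨⟨y, LinearMap.mem_ker.2 hy⟩, rfl⟩
    · rintro ⟨z, hz⟩
      have := congrArg (fun x : X => x.1.1) hz
      exact this.symm

end fp

section aug

variable {Γ : Type} [Group Γ]

/-- The augmentation, as a map to the trivial module. -/
noncomputable def augT : MonoidAlgebra ℚ Γ →ₗ[MonoidAlgebra ℚ Γ] Triv ℚ where
  toFun a := (MonoidAlgebra.lift ℚ ℚ Γ 1 : MonoidAlgebra ℚ Γ →ₐ[ℚ] ℚ) a
  map_add' := map_add _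
  map_smul' a b := map_mul (MonoidAlgebra.lift ℚ ℚ Γ 1 : MonoidAlgebra ℚ Γ →ₐ[ℚ] ℚ) a b

theorem augT_apply (a : MonoidAlgebra ℚ Γ) :
    augT a = (MonoidAlgebra.lift ℚ ℚ Γ 1 : MonoidAlgebra ℚ Γ →ₐ[ℚ] ℚ) a := rfl

theorem augT_single (g : Γ) (q : ℚ) : augT (MonoidAlgebra.single g q) = q := by
  rw [augT_apply, MonoidAlgebra.lift_single]
  simp only [MonoidHom.one_apply, smul_eq_mul, mul_one]
  rfl

theorem augT_surj : Function.Surjective (augT (Γ := Γ)) := fun q =>
  ⟨MonoidAlgebra.single 1 q, augT_single 1 q⟩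

omit [Group Γ] in
/-- Two ℚ-linear maps on the group ring that agree on group elements are equal. -/
theorem lhom_ext {N : Type*} [AddCommGroup N] [Module ℚ N] {f g : MonoidAlgebra ℚ Γ →ₗ[ℚ] N}
    (h : ∀ x : Γ, f (MonoidAlgebra.single x 1) = g (MonoidAlgebra.single x 1)) (a) : f a = g a := by
  have : f = g := by
    apply MonoidAlgebra.lhom_ext'
    intro x
    ext
    simpa using h x
  rw [this]

/-- A ℚ-linear map that kills all translates of a set kills the submodule generated by it. -/
theorem span_kill {V W : Type*} [AddCommGroup V] [Module ℚ V] [Module (MonoidAlgebra ℚ Γ) V]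
    [IsScalarTower ℚ (MonoidAlgebra ℚ Γ) V] [AddCommGroup W] [Module ℚ W] (L : V →ₗ[ℚ] W)
    (X : Set V) (h : ∀ (g : Γ), ∀ x ∈ X, L (MonoidAlgebra.single g (1 : ℚ) • x) = 0)
    (z : V) (hz : z ∈ Submodule.span (MonoidAlgebra ℚ Γ) X) : L z = 0 := by
  have key : ∀ a : MonoidAlgebra ℚ Γ, L (a • z) = 0 := by
    induction hz using Submodule.span_induction with
    | mem x hx =>
      intro a
      have : (L ∘ₗ (LinearMap.toSpanSingleton (MonoidAlgebra ℚ Γ) V x).restrictScalars ℚ) a
          = (0 : MonoidAlgebra ℚ Γ →ₗ[ℚ] W) a := by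
        apply lhom_ext
        intro g
        simpa using h g x hx
      simpa using this
    | zero => intro a; simp
    | add x y _ _ hx hy => intro a; rw [smul_add, map_add, hx, hy, add_zero]
    | smul b x _ hx => intro a; rw [smul_smul]; exact hx _
  simpa using key 1

/-- The augmentation ideal is generated by the `g - 1`. -/
theorem ker_aug : LinearMap.ker (augT (Γ := Γ)) =
    Submodule.span (MonoidAlgebra ℚ Γ)
      (Set.range fun g : Γ => MonoidAlgebra.single g (1 : ℚ) - 1) := by
  apply le_antisymm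
  · intro a ha
    set X := Submodule.span (MonoidAlgebra ℚ Γ)
      (Set.range fun g : Γ => MonoidAlgebra.single g (1 : ℚ) - 1) with hX
    have key : ∀ b : MonoidAlgebra ℚ Γ,
        ((X.restrictScalars ℚ).mkQ ∘ₗ (LinearMap.id - (Algebra.linearMap ℚ (MonoidAlgebra ℚ Γ)) ∘ₗ
          (MonoidAlgebra.lift ℚ ℚ Γ 1 : MonoidAlgebra ℚ Γ →ₐ[ℚ] ℚ).toLinearMap)) b
          = (0 : MonoidAlgebra ℚ Γ →ₗ[ℚ] _) b := by
      apply lhom_ext
      intro g
      have : MonoidAlgebra.single g (1 : ℚ) - 1 ∈ X := Submodule.subset_span ⟨g, rfl⟩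
      have h2 : (Submodule.Quotient.mk (MonoidAlgebra.single g (1 : ℚ) - 1) :
          MonoidAlgebra ℚ Γ ⧸ X.restrictScalars ℚ) = 0 :=
        (Submodule.Quotient.mk_eq_zero _).2 this
      simpa [MonoidAlgebra.lift_single, MonoidAlgebra.one_def] using h2
    have h := key a
    have ha' : (MonoidAlgebra.lift ℚ ℚ Γ 1 : MonoidAlgebra ℚ Γ →ₐ[ℚ] ℚ) a = 0 :=
      LinearMap.mem_ker.1 ha
    simpa [ha'] using h
  · rw [Submodule.span_le]
    rintro _ ⟨g, rfl⟩
    rw [SetLike.mem_coe, LinearMap.mem_ker, map_sub, augT_single]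
    have : augT (1 : MonoidAlgebra ℚ Γ) = (1 : ℚ) := augT_single 1 1
    rw [this]
    exact sub_self _

end aug

end Vale.Agent.P260.H838
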