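import Mathlib
import Vale.Agent.P260.H838.Fp

/-!
# P260 climb, module M2: finite generation and the Cayley graph form of type FP₂ over ℚ
-/

namespace Vale.Agent.P260.H838

open Vale.Agent.P260.H493

section chain

variable {Γ : Type} [Group Γ] (S : Finset Γ)

open Classical in
/-- The chain of the path that starts at `x` and has letters `w`. -/
noncomputable def ch : Γ → List S → (S → MonoidAlgebra ℚ Γ)
  | _, [] => 0
  | x, s :: w => Pi.single s (MonoidAlgebra.single x 1) + ch (x * (s : Γ)) w

variable {S}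

theorem smul_ch (g x : Γ) (w : List S) :
    MonoidAlgebra.single g (1 : ℚ) • ch S x w = ch S (g * x) w := by
  classical
  induction w generalizing x with
  | nil => simp [ch]
  | cons s w ih =>
    rw [ch, ch, smul_add, ih, ← Pi.single_smul]
    simp [MonoidAlgebra.single_mul_single, mul_assoc]

theorem ch_append (x : Γ) (w w' : List S) :
    ch S x (w ++ w') = ch S x w + ch S (x * (w.map Subtype.val).prod) w' := by
  induction w generalizing x with
  | nil => simp [ch]
  | cons s w ih =>
    rw [List.cons_append, ch, ch, ih, List.map_cons, List.prod_cons, mul_assoc, add_assoc]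

variable (S) in
/-- The map `D e_s = s - 1`. -/
noncomputable def D : (S → MonoidAlgebra ℚ Γ) →ₗ[MonoidAlgebra ℚ Γ] MonoidAlgebra ℚ Γ :=
  Fintype.linearCombination (MonoidAlgebra ℚ Γ) fun s : S => MonoidAlgebra.single (s : Γ) (1 : ℚ) - 1

theorem D_ch (x : Γ) (w : List S) : D S (ch S x w) =
    MonoidAlgebra.single (x * (w.map Subtype.val).prod) 1 - MonoidAlgebra.single x 1 := by
  classical
  induction w generalizing x with
  | nil => simp [ch]
  | cons s w ih =>
    rw [ch, map_add, ih, D]
    have : (Fintype.linearCombination (MonoidAlgebra ℚ Γ)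
        fun s : S => MonoidAlgebra.single (s : Γ) (1 : ℚ) - 1)
        (Pi.single s (MonoidAlgebra.single x 1)) =
        MonoidAlgebra.single (x * s) 1 - MonoidAlgebra.single x 1 := by
      rw [Fintype.linearCombination_apply_single, smul_eq_mul, mul_sub, mul_one,
        MonoidAlgebra.single_mul_single, mul_one]
    convert congrArg (· + _) this using 1
    simp [mul_assoc]

variable (S) in
/-- The submodule generated by the chains of closed walks. -/
noncomputable def CW : Set (S → MonoidAlgebra ℚ Γ) :=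
  {z | ∃ w : List S, (w.map Subtype.val).prod = 1 ∧ z = ch S 1 w}

theorem exists_word (hS : GenSet S) (x : Γ) :
    ∃ w : List S, (w.map Subtype.val).prod = x := by
  have hx : x ∈ Subgroup.closure (S : Set Γ) := by rw [hS.gen]; trivial
  induction hx using Subgroup.closure_induction_right with
  | one => exact ⟨[], rfl⟩
  | mul_right x _ s hs ih =>
    obtain ⟨w, hw⟩ := ih
    exact ⟨w ++ [⟨s, hs⟩], by rw [List.map_append, List.prod_append, hw]; simp⟩
  | mul_inv_cancel x _ s hs ih =>
    obtain ⟨w, hw⟩ := ih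
    exact ⟨w ++ [⟨s⁻¹, hS.inv s hs⟩], by rw [List.map_append, List.prod_append, hw]; simp⟩

theorem ch_sub_mem (hS : GenSet S) (w w' : List S)
    (h : (w.map Subtype.val).prod = (w'.map Subtype.val).prod) :
    ch S 1 w - ch S 1 w' ∈ Submodule.span (MonoidAlgebra ℚ Γ) (CW S) := by
  obtain ⟨r, hr⟩ := exists_word hS (w.map Subtype.val).prod⁻¹
  have h1 : ch S 1 (w ++ r) ∈ Submodule.span (MonoidAlgebra ℚ Γ) (CW S) :=
    Submodule.subset_span ⟨_, by rw [List.map_append, List.prod_append, hr, mul_inv_cancel], rfl⟩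
  have h2 : ch S 1 (w' ++ r) ∈ Submodule.span (MonoidAlgebra ℚ Γ) (CW S) :=
    Submodule.subset_span ⟨_, by rw [List.map_append, List.prod_append, hr, h, mul_inv_cancel], rfl⟩
  have := Submodule.sub_mem _ h1 h2
  rw [ch_append, ch_append, h] at this
  simpa using this

theorem ker_D (hS : GenSet S) :
    LinearMap.ker (D S) = Submodule.span (MonoidAlgebra ℚ Γ) (CW S) := by
  classical
  apply le_antisymm
  · intro z hz
    choose wd hwd using exists_word hS
    set X := Submodule.span (MonoidAlgebra ℚ Γ) (CW S) with hX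
    let σ : MonoidAlgebra ℚ Γ →ₗ[ℚ] (S → MonoidAlgebra ℚ Γ) :=
      Finsupp.linearCombination ℚ (fun x => ch S 1 (wd x)) ∘ₗ
        (MonoidAlgebra.coeffLinearEquiv ℚ).toLinearMap
    have hσ : ∀ x : Γ, σ (MonoidAlgebra.single x 1) = ch S 1 (wd x) := by
      intro x
      simp [σ]
    have key : ((X.restrictScalars ℚ).mkQ ∘ₗ
        (LinearMap.id - σ ∘ₗ (D S).restrictScalars ℚ)) = 0 := by
      refine LinearMap.pi_ext' fun s => ?_
      apply LinearMap.ext
      intro a
      refine (lhom_ext (g := 0) ?_ a)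
      intro x
      have h1 : ch S 1 (wd x ++ [s]) - ch S 1 (wd (x * s)) ∈ X :=
        ch_sub_mem hS _ _ (by rw [List.map_append, List.prod_append, hwd, hwd]; simp)
      have h2 : ch S 1 (wd x ++ [s]) = ch S 1 (wd x) + Pi.single s (MonoidAlgebra.single x 1) := by
        rw [ch_append, hwd]
        simp [ch]
      have h3 : D S (Pi.single s (MonoidAlgebra.single x 1)) =
          MonoidAlgebra.single (x * s) 1 - MonoidAlgebra.single x 1 := by
        have := D_ch (S := S) x [s]
        simpa [ch] using this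
      have h4 : (Submodule.Quotient.mk (ch S 1 (wd x ++ [s]) - ch S 1 (wd (x * s))) :
          (S → MonoidAlgebra ℚ Γ) ⧸ X.restrictScalars ℚ) = 0 :=
        (Submodule.Quotient.mk_eq_zero _).2 h1
      simp only [LinearMap.comp_apply, LinearMap.sub_apply, LinearMap.id_apply,
        LinearMap.restrictScalars_apply, LinearMap.single_apply, h3, map_sub, hσ,
        LinearMap.zero_apply]
      rw [h2] at h4
      rw [← h4]
      simp only [Submodule.mkQ_apply, Submodule.Quotient.mk_sub, Submodule.Quotient.mk_add]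
      abel
    have h := congrArg (fun f => f z) key
    have hz' : D S z = 0 := LinearMap.mem_ker.1 hz
    simpa [hz'] using h
  · rw [Submodule.span_le]
    rintro _ ⟨w, hw, rfl⟩
    rw [SetLike.mem_coe, LinearMap.mem_ker, D_ch, hw]
    simp

/-- The linear functional of a cochain. -/
noncomputable def fn (c : Γ → Γ → ℚ) : (S → MonoidAlgebra ℚ Γ) →ₗ[ℚ] ℚ :=
  ∑ s : S, (Finsupp.linearCombination ℚ (fun x => c x s) ∘ₗ
    (MonoidAlgebra.coeffLinearEquiv ℚ).toLinearMap) ∘ₗ LinearMap.proj s

theorem fn_ch (c : Γ → Γ → ℚ) (x : Γ) (w : List S) :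
    fn c (ch S x w) = psum c x (w.map Subtype.val) := by
  classical
  induction w generalizing x with
  | nil => simp [ch, psum]
  | cons s w ih =>
    rw [ch, map_add, ih, List.map_cons, psum]
    congr 1
    rw [fn, LinearMap.sum_apply, Finset.sum_eq_single s]
    · simp
    · intro t _ ht
      simp [Pi.single_eq_of_ne ht]
    · simp

end chain

/-- **M2**. -/
theorem stmtFP2 : StmtFP2 := by
  classical
  intro Γ _ m P
  -- the augmented resolution
  let e : (Fin (P.r 0) → MonoidAlgebra ℚ Γ) →ₗ[MonoidAlgebra ℚ Γ] Triv ℚ :=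
    { toFun := P.ε
      map_add' := map_add P.ε
      map_smul' := by
        intro a v
        have : (P.ε ∘ₗ (LinearMap.toSpanSingleton (MonoidAlgebra ℚ Γ) _ v).restrictScalars ℚ) a
            = (LinearMap.toSpanSingleton ℚ ℚ (P.ε v) ∘ₗ
              (MonoidAlgebra.lift ℚ ℚ Γ 1 : MonoidAlgebra ℚ Γ →ₐ[ℚ] ℚ).toLinearMap) a := by
          refine lhom_ext (Γ := Γ) ?_ a
          intro g
          simp [P.eps_smul, MonoidAlgebra.lift_single]
        exact this }
  have he : Function.Surjective e := P.eps_surj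
  have fp1 : ∀ {M : Type} [AddCommGroup M] [Module (MonoidAlgebra ℚ Γ) M]
      [Module.Finite (MonoidAlgebra ℚ Γ) M] [Module.Projective (MonoidAlgebra ℚ Γ) M]
      (p : M →ₗ[MonoidAlgebra ℚ Γ] Triv ℚ), Function.Surjective p →
      Module.FinitePresentation (MonoidAlgebra ℚ Γ) (LinearMap.ker p) := by
    intro M _ _ _ _ p hp
    exact ker_fp (P.d 1) (P.d 0) e he P.ex0 (P.ex 0 (Nat.succ_pos m)) p hp
  have hI : Module.FinitePresentation (MonoidAlgebra ℚ Γ) (LinearMap.ker (augT (Γ := Γ))) :=
    fp1 _ augT_surj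
  have hIfg : (LinearMap.ker (augT (Γ := Γ))).FG := Module.Finite.iff_fg.1 inferInstance
  -- generators
  rw [ker_aug, Submodule.fg_span_iff_fg_span_finset_subset] at hIfg
  obtain ⟨t, ht, hspan⟩ := hIfg
  have ht' : ∀ x ∈ t, ∃ g : Γ, MonoidAlgebra.single g (1 : ℚ) - 1 = x := fun x hx => ht hx
  choose! gg hgg using ht'
  let T : Finset Γ := t.image gg
  have hT : Subgroup.closure (T : Set Γ) = ⊤ := by
    rw [Subgroup.eq_top_iff']
    intro g
    let H := Subgroup.closure (T : Set Γ)
    let L : MonoidAlgebra ℚ Γ →ₗ[ℚ] ((Γ ⧸ H) →₀ ℚ) :=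
      Finsupp.lmapDomain ℚ ℚ (QuotientGroup.mk : Γ → Γ ⧸ H) ∘ₗ
        (MonoidAlgebra.coeffLinearEquiv ℚ).toLinearMap
    have hL : ∀ x : Γ, L (MonoidAlgebra.single x 1) = Finsupp.single (QuotientGroup.mk x) 1 := by
      intro x
      simp [L]
    have h1 : L (MonoidAlgebra.single g 1 - 1) = 0 := by
      refine span_kill (Γ := Γ) L (t : Set (MonoidAlgebra ℚ Γ)) ?_ _ ?_
      · intro a x hx
        have hxx := hgg x hx
        have hmem : gg x ∈ H := Subgroup.subset_closure (by
          simp only [T, Finset.coe_image]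
          exact ⟨x, hx, rfl⟩)
        rw [← hxx, smul_sub, smul_eq_mul, smul_eq_mul, MonoidAlgebra.single_mul_single, mul_one,
          mul_one, map_sub, hL, hL, sub_eq_zero]
        congr 1
        rw [QuotientGroup.eq]
        simpa using hmem
      · rw [← hspan]
        exact Submodule.subset_span ⟨g, rfl⟩
    rw [MonoidAlgebra.one_def, map_sub, hL, hL, sub_eq_zero,
      Finsupp.single_left_inj one_ne_zero, eq_comm, QuotientGroup.eq] at h1
    simpa using h1
  let S : Finset Γ := T ∪ T.image (fun x => x⁻¹)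
  have hS : GenSet S := by
    constructor
    · rw [eq_top_iff, ← hT]
      apply Subgroup.closure_mono
      intro x hx
      exact Finset.mem_coe.2 (Finset.mem_union_left _ hx)
    · intro s hs
      rcases Finset.mem_union.1 hs with h | h
      · exact Finset.mem_union_right _ (Finset.mem_image_of_mem _ h)
      · obtain ⟨x, hx, rfl⟩ := Finset.mem_image.1 h
        rw [inv_inv]
        exact Finset.mem_union_left _ hx
  -- the range of `D`
  have hrange : LinearMap.range (D S) = LinearMap.ker (augT (Γ := Γ)) := by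
    rw [D, Fintype.range_linearCombination, ker_aug]
    apply le_antisymm
    · rw [Submodule.span_le]
      rintro _ ⟨s, rfl⟩
      exact Submodule.subset_span ⟨s, rfl⟩
    · rw [hspan, Submodule.span_le]
      intro x hx
      have hxx := hgg x hx
      have hmem : gg x ∈ S := Finset.mem_union_left _ (Finset.mem_image_of_mem _ hx)
      exact Submodule.subset_span ⟨⟨gg x, hmem⟩, hxx⟩
  have hker : (LinearMap.ker (D S)).FG := by
    let D' : (S → MonoidAlgebra ℚ Γ) →ₗ[MonoidAlgebra ℚ Γ] LinearMap.ker (augT (Γ := Γ)) :=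
      LinearMap.codRestrict _ (D S) fun v => by
        rw [← hrange]; exact ⟨v, rfl⟩
    have hD' : Function.Surjective D' := by
      rintro ⟨x, hx⟩
      rw [← hrange] at hx
      obtain ⟨v, hv⟩ := hx
      exact ⟨v, Subtype.ext hv⟩
    have := Module.FinitePresentation.fg_ker D' hD'
    rwa [LinearMap.ker_codRestrict] at this
  rw [ker_D hS, Submodule.fg_span_iff_fg_span_finset_subset] at hker
  obtain ⟨u, hu, huspan⟩ := hker
  have hu' : ∀ z ∈ u, ∃ w : List S, (w.map Subtype.val).prod = 1 ∧ z = ch S 1 w :=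
    fun z hz => hu hz
  choose! ww hww1 hww2 using hu'
  refine ⟨S, u.sup fun z => (ww z).length, hS, ?_⟩
  intro c hc x w hw hprod
  lift w to List S using hw
  have hprod' : (w.map Subtype.val).prod = 1 := hprod
  have h := span_kill (Γ := Γ) (fn (S := S) c) (u : Set (S → MonoidAlgebra ℚ Γ)) ?_ (ch S x w) ?_
  · rw [fn_ch] at h
    exact h
  · intro g z hz
    rw [hww2 z hz, smul_ch, fn_ch, mul_one]
    refine hc g _ ?_ (hww1 z hz) ?_
    · intro s hs
      obtain ⟨s', _, rfl⟩ := List.mem_map.1 hs
      exact s'.2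
    · rw [List.length_map]
      exact Finset.le_sup (f := fun z => (ww z).length) hz
  · rw [← huspan, ← ker_D hS, LinearMap.mem_ker, D_ch, hprod']
    simp

end Vale.Agent.P260.H838
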