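import Mathlib
import Vale.Agent.P260.H838.FP2
import Vale.Agent.P260.H802.VSpec
import Vale.Agent.P260.H493.Spec2

/-!
# P260 climb: duality groups over ℚ are finitely generated (all dimensions, also 1)
-/

namespace Vale.Agent.P260.H838

open Vale.Agent.P260.H493

/-- The augmentation ideal is finitely generated only for finitely generated groups. -/
theorem fg_of_aug {Γ : Type} [Group Γ] (hIfg : (LinearMap.ker (augT (Γ := Γ))).FG) :
    Group.FG Γ := by
  classical
  rw [ker_aug, Submodule.fg_span_iff_fg_span_finset_subset] at hIfg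
  obtain ⟨t, ht, hspan⟩ := hIfg
  have ht' : ∀ x ∈ t, ∃ g : Γ, MonoidAlgebra.single g (1 : ℚ) - 1 = x := fun x hx => ht hx
  choose! gg hgg using ht'
  let T : Finset Γ := t.image gg
  refine ⟨⟨T, ?_⟩⟩
  rw [Subgroup.eq_top_iff']
  intro g
  let H := Subgroup.closure (T : Set Γ)
  let L : MonoidAlgebra ℚ Γ →ₗ[ℚ] ((Γ ⧸ H) →₀ ℚ) :=
    Finsupp.lmapDomain ℚ ℚ (QuotientGroup.mk : Γ → Γ ⧸ H) ∘ₗ
      (MonoidAlgebra.coeffLinearEquiv ℚ).toLinearMap
  have hL : ∀ x : Γ, L (MonoidAlgebra.single x 1) = Finsupp.single (QuotientGroup.mk x) 1 := by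
    intro x
    simp [L]
  have h1 : L (MonoidAlgebra.single g 1 - 1) = 0 := by
    refine span_kill (Γ := Γ) L (t : Set (MonoidAlgebra ℚ Γ)) ?_ _ ?_
    · intro a x hx
      have hxx := hgg x hx
      have hmem : gg x ∈ H := Subgroup.subset_closure (by
        simp only [T, Finset.coe_image]
        exact ⟨x, hx, rfl⟩)
      rw [← hxx, smul_sub, smul_eq_mul, smul_eq_mul, MonoidAlgebra.single_mul_single, mul_one,
        mul_one, map_sub, hL, hL, sub_eq_zero]
      congr 1
      rw [QuotientGroup.eq]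
      simpa using hmem
    · rw [← hspan]
      exact Submodule.subset_span ⟨g, rfl⟩
  rw [MonoidAlgebra.one_def, map_sub, hL, hL, sub_eq_zero,
    Finsupp.single_left_inj one_ne_zero, eq_comm, QuotientGroup.eq] at h1
  simpa using h1

/-- Duality groups over ℚ are finitely generated. -/
theorem stmtFG : StmtFG := by
  intro Γ _ m P
  apply fg_of_aug
  let e : (Fin (P.r 0) → MonoidAlgebra ℚ Γ) →ₗ[MonoidAlgebra ℚ Γ] Triv ℚ :=
    { toFun := P.ε
      map_add' := map_add P.ε
      map_smul' := by
        intro a v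
        have : (P.ε ∘ₗ (LinearMap.toSpanSingleton (MonoidAlgebra ℚ Γ) _ v).restrictScalars ℚ) a
            = (LinearMap.toSpanSingleton ℚ ℚ (P.ε v) ∘ₗ
              (MonoidAlgebra.lift ℚ ℚ Γ 1 : MonoidAlgebra ℚ Γ →ₐ[ℚ] ℚ).toLinearMap) a := by
          refine lhom_ext (Γ := Γ) ?_ a
          intro g
          simp [P.eps_smul, MonoidAlgebra.lift_single]
        exact this }
  have he : Function.Surjective e := P.eps_surj
  have hker : (LinearMap.ker e).FG := by
    have : LinearMap.ker e = LinearMap.range (P.d 0) := by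
      ext v
      rw [LinearMap.mem_ker, LinearMap.mem_range]
      exact P.ex0 v
    rw [this]
    exact Submodule.fg_range _
  have hK : Module.FinitePresentation (MonoidAlgebra ℚ Γ) (Triv ℚ) :=
    Module.finitePresentation_of_surjective e he hker
  exact Module.FinitePresentation.fg_ker (augT (Γ := Γ)) augT_surj

/-- **V5a**. -/
theorem stmtFG0 : Vale.Agent.P260.H802.StmtFG0 := fun N _ P => stmtFG N 0 P

end Vale.Agent.P260.H838
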