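import Mathlib
import Vale.Agent.P260.H932.Win

/-!
# P260 climb, W5: the density of a submodule of a free module over a group algebra
-/

namespace Vale.Agent.P260.H838

open MonoidAlgebra Vale.Agent.P260.H493 Vale.Agent.P260.H932

variable {k Γ : Type} [Field k] [Group Γ]

/-- the dimension of the space of vectors of `N` with supports in `E` -/
noncomputable def dd {ι : Type} (N : Submodule (MonoidAlgebra k Γ) (ι → MonoidAlgebra k Γ))
    (E : Finset Γ) : ℕ :=
  Module.finrank k (N.restrictScalars k ⊓ W k ι (E : Set Γ) :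
    Submodule k (ι → MonoidAlgebra k Γ))

/-- the density of `N` -/
noncomputable def nu {ι : Type} (N : Submodule (MonoidAlgebra k Γ) (ι → MonoidAlgebra k Γ)) : ℝ :=
  sSup {x : ℝ | ∃ E : Finset Γ, E.Nonempty ∧ x = (dd N E : ℝ) / E.card}

section

variable {ι : Type} [Fintype ι]

theorem dd_le_card (N : Submodule (MonoidAlgebra k Γ) (ι → MonoidAlgebra k Γ)) (E : Finset Γ) :
    dd N E ≤ Fintype.card ι * E.card :=
  finrank_le_W ι E _ inf_le_right

theorem nu_bdd (N : Submodule (MonoidAlgebra k Γ) (ι → MonoidAlgebra k Γ)) :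
    BddAbove {x : ℝ | ∃ E : Finset Γ, E.Nonempty ∧ x = (dd N E : ℝ) / E.card} := by
  refine ⟨Fintype.card ι, ?_⟩
  rintro x ⟨E, hE, rfl⟩
  have hE' : (0 : ℝ) < E.card := by exact_mod_cast hE.card_pos
  rw [div_le_iff₀ hE']
  exact_mod_cast dd_le_card N E

theorem dd_le (N : Submodule (MonoidAlgebra k Γ) (ι → MonoidAlgebra k Γ)) (E : Finset Γ) :
    (dd N E : ℝ) ≤ nu N * E.card := by
  rcases E.eq_empty_or_nonempty with rfl | hE
  · have := dd_le_card N (∅ : Finset Γ)
    simp only [Finset.card_empty, mul_zero, Nat.le_zero] at this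
    simp [this]
  · have hE' : (0 : ℝ) < E.card := by exact_mod_cast hE.card_pos
    rw [← div_le_iff₀ hE']
    exact le_csSup (nu_bdd N) ⟨E, hE, rfl⟩

theorem nu_le (N : Submodule (MonoidAlgebra k Γ) (ι → MonoidAlgebra k Γ)) :
    nu N ≤ Fintype.card ι := by
  refine csSup_le ⟨_, {1}, Finset.singleton_nonempty 1, rfl⟩ ?_
  rintro x ⟨E, hE, rfl⟩
  have hE' : (0 : ℝ) < E.card := by exact_mod_cast hE.card_pos
  rw [div_le_iff₀ hE']
  exact_mod_cast dd_le_card N E

theorem nu_nonneg (N : Submodule (MonoidAlgebra k Γ) (ι → MonoidAlgebra k Γ)) : 0 ≤ nu N := by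
  have := dd_le N {1}
  simp only [Finset.card_singleton, Nat.cast_one, mul_one] at this
  exact (Nat.cast_nonneg _).trans this

omit [Fintype ι] in
theorem exists_dd (N : Submodule (MonoidAlgebra k Γ) (ι → MonoidAlgebra k Γ)) {ε : ℝ}
    (hε : 0 < ε) : ∃ E : Finset Γ, E.Nonempty ∧ (nu N - ε) * E.card ≤ dd N E := by
  obtain ⟨x, ⟨E, hE, rfl⟩, hx⟩ := exists_lt_of_lt_csSup
    (s := {x : ℝ | ∃ E : Finset Γ, E.Nonempty ∧ x = (dd N E : ℝ) / E.card})
    ⟨_, {1}, Finset.singleton_nonempty 1, rfl⟩ (show nu N - ε < nu N by linarith)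
  refine ⟨E, hE, ?_⟩
  have hE' : (0 : ℝ) < E.card := by exact_mod_cast hE.card_pos
  rw [lt_div_iff₀ hE'] at hx
  exact hx.le

/-- the space of vectors with supports in `E` has dimension `|ι| |E|` -/
theorem finrank_W_eq (E : Finset Γ) :
    Module.finrank k (W k ι (E : Set Γ)) = Fintype.card ι * E.card := by
  classical
  refine le_antisymm (finrank_W ι E) ?_
  have hs : Function.Surjective (evalW k ι E) := by
    intro f
    refine ⟨⟨fun i => MonoidAlgebra.ofCoeff
      (Finsupp.indicator E fun g hg => f (i, ⟨g, hg⟩)), ?_⟩, ?_⟩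
    · intro i g hg
      by_contra hgE
      apply hg
      rw [Finsupp.indicator_apply, dif_neg (fun h => hgE (Finset.mem_coe.2 h))]
    · funext p
      obtain ⟨i, g, hg⟩ := p
      change (Finsupp.indicator E fun g hg => f (i, ⟨g, hg⟩)) g = f (i, ⟨g, hg⟩)
      rw [Finsupp.indicator_apply, dif_pos hg]
  have := finite_W (k := k) ι E
  have h := LinearMap.finrank_range_le (evalW k ι E)
  rw [LinearMap.range_eq_top.2 hs, finrank_top, Module.finrank_fintype_fun_eq_card,
    Fintype.card_prod, Fintype.card_coe] at h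
  exact h

end

end Vale.Agent.P260.H838
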