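import Mathlib

/-!
# Shearer's lemma for submodular functions
-/

namespace Vale.Agent.P260.H838

variable {α ι : Type*} [DecidableEq α]

/-- Shearer's lemma: every point of `E` lies in at least `k` of the sets `S i`. -/
theorem shearer_inter (h : Finset α → ℕ) (h0 : h ∅ = 0) (hmono : Monotone h)
    (hsub : ∀ A B, h (A ∪ B) + h (A ∩ B) ≤ h A + h B) (I : Finset ι) (S : ι → Finset α) (k : ℕ)
    (E : Finset α) (hk : ∀ x ∈ E, k ≤ (I.filter fun i => x ∈ S i).card) :
    k * h E ≤ ∑ i ∈ I, h (S i ∩ E) := by
  induction E using Finset.induction_on with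
  | empty => simp [h0]
  | insert x E hx ih =>
    have ih' := ih fun y hy => hk y (Finset.mem_insert_of_mem hy)
    have hxk := hk x (Finset.mem_insert_self x E)
    have hle : h E ≤ h (insert x E) := hmono (Finset.subset_insert x E)
    obtain ⟨δ, hδ⟩ := Nat.exists_eq_add_of_le hle
    have key : ∀ i ∈ I, (if x ∈ S i then δ else 0) + h (S i ∩ E) ≤ h (S i ∩ insert x E) := by
      intro i _
      split_ifs with hxi
      · have h1 := hsub (S i ∩ insert x E) E
        have h2 : (S i ∩ insert x E) ∪ E = insert x E := by
          ext y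
          simp only [Finset.mem_union, Finset.mem_inter, Finset.mem_insert]
          constructor
          · rintro (⟨_, h⟩ | h)
            · exact h
            · exact Or.inr h
          · rintro (rfl | h)
            · exact Or.inl ⟨hxi, Or.inl rfl⟩
            · exact Or.inr h
        have h3 : (S i ∩ insert x E) ∩ E = S i ∩ E := by
          ext y
          simp only [Finset.mem_inter, Finset.mem_insert]
          tauto
        rw [h2, h3] at h1
        omega
      · rw [zero_add]
        exact hmono (Finset.inter_subset_inter (Finset.Subset.refl _) (Finset.subset_insert x E))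
    calc k * h (insert x E) = k * δ + k * h E := by rw [hδ]; ring
      _ ≤ (I.filter fun i => x ∈ S i).card * δ + ∑ i ∈ I, h (S i ∩ E) :=
          Nat.add_le_add (Nat.mul_le_mul_right δ hxk) ih'
      _ = ∑ i ∈ I, ((if x ∈ S i then δ else 0) + h (S i ∩ E)) := by
          rw [Finset.sum_add_distrib, ← Finset.sum_filter, Finset.sum_const, smul_eq_mul]
      _ ≤ ∑ i ∈ I, h (S i ∩ insert x E) := Finset.sum_le_sum key

/-- Shearer's lemma. -/
theorem shearer (h : Finset α → ℕ) (h0 : h ∅ = 0) (hmono : Monotone h)
    (hsub : ∀ A B, h (A ∪ B) + h (A ∩ B) ≤ h A + h B) (I : Finset ι) (S : ι → Finset α) (k : ℕ)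
    (E : Finset α) (hk : ∀ x ∈ E, k ≤ (I.filter fun i => x ∈ S i).card) :
    k * h E ≤ ∑ i ∈ I, h (S i) :=
  (shearer_inter h h0 hmono hsub I S k E hk).trans
    (Finset.sum_le_sum fun _ _ => hmono Finset.inter_subset_left)

/-- The dimension of the image in a quotient is submodular: a linear-algebra instance. -/
theorem submodular_finrank {k V : Type*} [Field k] [AddCommGroup V] [Module k V]
    (W : Finset α → Submodule k V) [∀ A, FiniteDimensional k (W A)]
    (hsup : ∀ A B, W (A ∪ B) ≤ W A ⊔ W B) (hinf : ∀ A B, W (A ∩ B) ≤ W A ⊓ W B) (A B : Finset α) :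
    Module.finrank k (W (A ∪ B)) + Module.finrank k (W (A ∩ B)) ≤
      Module.finrank k (W A) + Module.finrank k (W B) := by
  rw [← Submodule.finrank_sup_add_finrank_inf_eq (W A) (W B)]
  exact Nat.add_le_add (Submodule.finrank_mono (hsup A B)) (Submodule.finrank_mono (hinf A B))

end Vale.Agent.P260.H838
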