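import Mathlib
import Vale.Agent.P260.H838.Nu
import Vale.Agent.P260.H838.Shearer

/-!
# P260 climb, W5: the density of the image of a map is attained with bounded lifts
-/

namespace Vale.Agent.P260.H838

open MonoidAlgebra Vale.Agent.P260.H493 Vale.Agent.P260.H932

open scoped Pointwise Classical

variable {k Γ : Type} [Field k] [Group Γ]

/-- left translation by a group element -/
noncomputable def ltr (k : Type) [Field k] {Γ : Type} [Group Γ] (ι : Type) (g : Γ) :
    (ι → MonoidAlgebra k Γ) →ₗ[k] (ι → MonoidAlgebra k Γ) where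
  toFun v := MonoidAlgebra.single g (1 : k) • v
  map_add' _ _ := smul_add _ _ _
  map_smul' _ _ := smul_comm _ _ _

theorem ltr_apply {ι : Type} (g : Γ) (v : ι → MonoidAlgebra k Γ) :
    ltr k ι g v = MonoidAlgebra.single g (1 : k) • v := rfl

theorem ltr_inj {ι : Type} (g : Γ) : Function.Injective (ltr k (Γ := Γ) ι g) := by
  intro v w h
  have h2 := congrArg (ltr k ι g⁻¹) h
  simpa [ltr_apply, smul_smul, MonoidAlgebra.single_mul_single, ← MonoidAlgebra.one_def] using h2

theorem ltr_mem {ι : Type} (g : Γ) {S S' : Set Γ} (hS : ∀ x ∈ S, g * x ∈ S')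
    {v : ι → MonoidAlgebra k Γ} (hv : v ∈ W k ι S) : ltr k ι g v ∈ W k ι S' := by
  intro i y h
  have h1 : (v i).coeff (g⁻¹ * y) ≠ 0 := by
    intro h2; apply h
    rw [ltr_apply, Pi.smul_apply, smul_eq_mul, coeff_single_mul', h2, mul_zero]
  have := hS _ (hv i _ h1)
  simpa using this

theorem finrank_split_ge {V V' : Type} [AddCommGroup V] [Module k V] [AddCommGroup V'] [Module k V']
    (I : Submodule k V) [Module.Finite k I] (f : V →ₗ[k] V') :
    Module.finrank k (I.map f) + Module.finrank k
      (I ⊓ LinearMap.ker f : Submodule k V) ≤ Module.finrank k I := by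
  have h1 := LinearMap.finrank_range_add_finrank_ker (f.domRestrict I)
  have h2 : LinearMap.range (f.domRestrict I) = I.map f := by
    rw [LinearMap.range_domRestrict]
  have h3 : Module.finrank k (I ⊓ LinearMap.ker f : Submodule k V) ≤
      Module.finrank k (LinearMap.ker (f.domRestrict I)) := by
    let g : (I ⊓ LinearMap.ker f : Submodule k V) →ₗ[k] LinearMap.ker (f.domRestrict I) :=
      { toFun := fun x => ⟨⟨x.1, x.2.1⟩, x.2.2⟩
        map_add' := fun x y => rfl
        map_smul' := fun r x => rfl }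
    have hg : Function.Injective g := by
      intro x y h
      apply Subtype.ext
      exact congrArg (fun z : LinearMap.ker (f.domRestrict I) => (z.1 : V)) h
    exact LinearMap.finrank_le_finrank_of_injective hg
  rw [h2] at h1
  omega

section

variable {ι κ : Type} [Fintype ι] [Fintype κ]

/-- a finite-dimensional space of images is the image of a space with bounded supports -/
theorem exists_lift (T : (κ → MonoidAlgebra k Γ) →ₗ[MonoidAlgebra k Γ] (ι → MonoidAlgebra k Γ))
    (E0 : Finset Γ) : ∃ B0 : Finset Γ,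
      (LinearMap.range T).restrictScalars k ⊓ W k ι (E0 : Set Γ) ≤
        (W k κ (B0 : Set Γ)).map (T.restrictScalars k) := by
  have hfin := finite_W (k := k) ι E0
  have hfin2 : Module.Finite k
      ((LinearMap.range T).restrictScalars k ⊓ W k ι (E0 : Set Γ) :
        Submodule k (ι → MonoidAlgebra k Γ)) :=
    Submodule.finiteDimensional_of_le inf_le_right
  obtain ⟨s, hs⟩ := (Module.Finite.iff_fg.1 hfin2 : Submodule.FG _)
  have h1 : ∀ v ∈ s, ∃ u, T u = v := by
    intro v hv
    have : v ∈ (LinearMap.range T).restrictScalars k ⊓ W k ι (E0 : Set Γ) := by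
      rw [← hs]; exact Submodule.subset_span hv
    exact this.1
  choose! u hu using h1
  refine ⟨s.biUnion fun v => Finset.univ.biUnion fun i => (u v i).coeff.support, ?_⟩
  rw [← hs, Submodule.span_le]
  intro v hv
  refine ⟨u v, ?_, hu v hv⟩
  intro i g hg
  rw [Finset.mem_coe, Finset.mem_biUnion]
  refine ⟨v, hv, ?_⟩
  rw [Finset.mem_biUnion]
  exact ⟨i, Finset.mem_univ i, Finsupp.mem_support_iff.2 hg⟩

theorem key (T : (κ → MonoidAlgebra k Γ) →ₗ[MonoidAlgebra k Γ] (ι → MonoidAlgebra k Γ))
    {ε : ℝ} (hε : 0 < ε) : ∃ (B K : Finset Γ) (δ : ℝ), 0 < δ ∧ ∀ E : Finset Γ,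
      (∀ b ∈ K, (((E.image (· * b)) \ E).card : ℝ) ≤ δ * E.card) →
      (nu (LinearMap.range T) - ε) * E.card ≤ Module.finrank k
        (W k ι (E : Set Γ) ⊓ (W k κ ((E * B : Finset Γ) : Set Γ)).map (T.restrictScalars k) :
          Submodule k (ι → MonoidAlgebra k Γ)) := by
  obtain ⟨E0, ⟨e0, he0⟩, hd0⟩ := exists_dd (LinearMap.range T) (half_pos hε)
  obtain ⟨B0, hB0⟩ := exists_lift T E0
  set V0 : Submodule k (ι → MonoidAlgebra k Γ) :=
    (LinearMap.range T).restrictScalars k ⊓ W k ι (E0 : Set Γ) with hV0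
  have hdd : dd (LinearMap.range T) E0 = Module.finrank k V0 := rfl
  rw [hdd] at hd0
  set r := Fintype.card ι with hr
  set n := E0.card with hn
  have hn0 : 0 < n := Finset.card_pos.2 ⟨e0, he0⟩
  have hnR : (0 : ℝ) < n := by exact_mod_cast hn0
  set d0 := Module.finrank k V0 with hd0'
  have hd0r : d0 ≤ r * n := finrank_le_W ι E0 V0 inf_le_right
  refine ⟨B0.image (e0⁻¹ * ·), (E0 ×ˢ E0).image (fun p => p.1⁻¹ * p.2),
    ε / (2 * (r + 1) * n ^ 2), by positivity, ?_⟩
  intro E hE
  set δ : ℝ := ε / (2 * (r + 1) * n ^ 2) with hδ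
  -- the translates
  set I : Finset Γ := E * E0⁻¹ with hI
  set Iin : Finset Γ := I.filter (fun g => E0.image (g * ·) ⊆ E) with hIin
  set Iout : Finset Γ := I.filter (fun g => ¬ E0.image (g * ·) ⊆ E) with hIout
  set X : Submodule k (ι → MonoidAlgebra k Γ) := ⨆ g ∈ Iin, V0.map (ltr k ι g) with hX
  have hcardg : ∀ g : Γ, (E0.image (g * ·)).card = n := fun g =>
    Finset.card_image_of_injective _ (mul_right_injective g)
  have hinE : ∀ g ∈ Iin, ∀ x ∈ E0, g * x ∈ E := by
    intro g hg x hx
    exact (Finset.mem_filter.1 hg).2 (Finset.mem_image_of_mem _ hx)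
  -- `X` is in `W E` and in the image
  have hX1 : X ≤ W k ι (E : Set Γ) := by
    refine iSup₂_le fun g hg => ?_
    rintro _ ⟨v, hv, rfl⟩
    exact ltr_mem g (fun x hx => hinE g hg x hx) hv.2
  have hX2 : X ≤ (W k κ ((E * B0.image (e0⁻¹ * ·) : Finset Γ) : Set Γ)).map
      (T.restrictScalars k) := by
    refine iSup₂_le fun g hg => ?_
    rintro _ ⟨v, hv, rfl⟩
    obtain ⟨u, hu, rfl⟩ := hB0 hv
    refine ⟨ltr k κ g u, ?_, ?_⟩
    · refine ltr_mem g (fun x hx => ?_) hu
      rw [Finset.mem_coe, Finset.mem_mul]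
      refine ⟨g * e0, hinE g hg e0 he0, e0⁻¹ * x, Finset.mem_image_of_mem _ hx, by group⟩
    · rw [LinearMap.restrictScalars_apply, LinearMap.restrictScalars_apply, ltr_apply, ltr_apply,
        map_smul]
  -- the submodular function
  have hWfin : ∀ S : Finset Γ, Module.Finite k (W k ι (S : Set Γ)) := fun S => finite_W ι S
  let Wq : Finset Γ → Submodule k ((ι → MonoidAlgebra k Γ) ⧸ X) := fun S =>
    (W k ι (S : Set Γ)).map X.mkQ
  have hWqfin : ∀ S, FiniteDimensional k (Wq S) := fun S => by
    have := hWfin S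
    exact Module.Finite.map _ _
  let h : Finset Γ → ℕ := fun S => Module.finrank k (Wq S)
  have h0 : h ∅ = 0 := by
    have := finrank_map_W (k := k) ι (∅ : Finset Γ) X.mkQ (Wq ∅) le_rfl
    rw [Finset.card_empty, mul_zero] at this
    exact Nat.le_zero.1 this
  have hmono : Monotone h := by
    intro S S' hSS
    have := hWqfin S'
    exact Submodule.finrank_mono (Submodule.map_mono (W_mono (Finset.coe_subset.2 hSS)))
  have hsub : ∀ S S', h (S ∪ S') + h (S ∩ S') ≤ h S + h S' := by
    refine submodular_finrank Wq ?_ ?_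
    · intro S S'
      rintro _ ⟨v, hv, rfl⟩
      have h1 : res (S : Set Γ) v ∈ W k ι (S : Set Γ) := res_mem _ v
      have h2 : v - res (S : Set Γ) v ∈ W k ι (S' : Set Γ) := by
        intro i g hg
        have h3 := sub_res_mem (S : Set Γ) v i g hg
        have h4 : (v i).coeff g ≠ 0 := by
          intro h5
          apply hg
          rw [Pi.sub_apply]
          simp [res_coeff, h5]
        have h5 := hv i g h4
        rw [Finset.coe_union] at h5
        exact h5.resolve_left h3
      have h3 : X.mkQ v = X.mkQ (res (S : Set Γ) v) + X.mkQ (v - res (S : Set Γ) v) := by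
        rw [← map_add]; congr 1; abel
      rw [h3]
      exact Submodule.add_mem_sup ⟨_, h1, rfl⟩ ⟨_, h2, rfl⟩
    · intro S S'
      refine le_inf ?_ ?_
      · exact Submodule.map_mono (W_mono (Finset.coe_subset.2 Finset.inter_subset_left))
      · exact Submodule.map_mono (W_mono (Finset.coe_subset.2 Finset.inter_subset_right))
  -- values of `h`
  have hhE : r * E.card ≤ h E + Module.finrank k X := by
    have := hWfin E
    have h1 := finrank_split (W k ι (E : Set Γ)) X.mkQ
    rw [finrank_W_eq, Submodule.ker_mkQ] at h1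
    have hXfin : Module.Finite k X := Submodule.finiteDimensional_of_le hX1
    have h2 : Module.finrank k (W k ι (E : Set Γ) ⊓ X : Submodule k (ι → MonoidAlgebra k Γ)) ≤
        Module.finrank k X := Submodule.finrank_mono inf_le_right
    exact h1.trans (Nat.add_le_add_left h2 _)
  have hhall : ∀ g : Γ, h (E0.image (g * ·)) ≤ r * n := by
    intro g
    have := finrank_map_W (k := k) ι (E0.image (g * ·)) X.mkQ (Wq (E0.image (g * ·))) le_rfl
    rwa [hcardg] at this
  have hhin : ∀ g ∈ Iin, h (E0.image (g * ·)) + d0 ≤ r * n := by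
    intro g hg
    have := hWfin (E0.image (g * ·))
    have h1 := finrank_split_ge (W k ι ((E0.image (g * ·) : Finset Γ) : Set Γ)) X.mkQ
    rw [finrank_W_eq, Submodule.ker_mkQ, hcardg] at h1
    have h2 : V0.map (ltr k ι g) ≤
        (W k ι ((E0.image (g * ·) : Finset Γ) : Set Γ) ⊓ X :
          Submodule k (ι → MonoidAlgebra k Γ)) := by
      refine le_inf ?_ (le_iSup₂_of_le g hg le_rfl)
      rintro _ ⟨v, hv, rfl⟩
      exact ltr_mem g (fun x hx => Finset.mem_coe.2 (Finset.mem_image_of_mem _ hx)) hv.2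
    have h3 : Module.finrank k (V0.map (ltr k ι g)) = d0 :=
      (LinearEquiv.finrank_eq (Submodule.equivMapOfInjective (ltr k ι g) (ltr_inj g) V0)).symm
    have hf : Module.Finite k (W k ι ((E0.image (g * ·) : Finset Γ) : Set Γ) ⊓ X :
          Submodule k (ι → MonoidAlgebra k Γ)) := Submodule.finiteDimensional_of_le inf_le_left
    have h4 := Submodule.finrank_mono h2
    rw [h3] at h4
    exact (Nat.add_le_add_left h4 _).trans h1
  -- the cover
  have hcover : ∀ x ∈ E, n ≤ (I.filter fun g => x ∈ E0.image (g * ·)).card := by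
    intro x hx
    have h1 : (E0.image (fun e => x * e⁻¹)).card = n :=
      Finset.card_image_of_injective _ (fun a b hab => inv_injective (mul_left_cancel hab))
    rw [← h1]
    apply Finset.card_le_card
    intro y hy
    obtain ⟨e, he, rfl⟩ := Finset.mem_image.1 hy
    rw [Finset.mem_filter]
    refine ⟨Finset.mul_mem_mul hx (Finset.inv_mem_inv he), ?_⟩
    exact Finset.mem_image.2 ⟨e, he, by group⟩
  have hsh := shearer h h0 hmono hsub I (fun g => E0.image (g * ·)) n E hcover
  have hIin_card : Iin.card ≤ E.card := by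
    have h1 : (Iin.image (· * e0)).card = Iin.card :=
      Finset.card_image_of_injective _ (mul_left_injective e0)
    rw [← h1]
    apply Finset.card_le_card
    intro y hy
    obtain ⟨g, hg, rfl⟩ := Finset.mem_image.1 hy
    exact hinE g hg e0 he0
  have hIout_card : (Iout.card : ℝ) ≤ n ^ 2 * (δ * E.card) := by
    have h1 : Iout ⊆ (E0 ×ˢ E0).biUnion fun p =>
        ((E.image (· * (p.1⁻¹ * p.2))) \ E).image (· * p.2⁻¹) := by
      intro g hg
      obtain ⟨hgI, hgE⟩ := Finset.mem_filter.1 hg
      obtain ⟨x, hx, y, hy, rfl⟩ := Finset.mem_mul.1 hgI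
      rw [Finset.mem_inv] at hy
      obtain ⟨e, he, rfl⟩ := hy
      rw [Finset.not_subset] at hgE
      obtain ⟨z, hz, hzE⟩ := hgE
      obtain ⟨e', he', rfl⟩ := Finset.mem_image.1 hz
      rw [Finset.mem_biUnion]
      refine ⟨(e, e'), Finset.mem_product.2 ⟨he, he'⟩, ?_⟩
      rw [Finset.mem_image]
      refine ⟨x * e⁻¹ * e', Finset.mem_sdiff.2 ⟨Finset.mem_image.2 ⟨x, hx, by group⟩, hzE⟩,
        by group⟩
    have h2 : (Iout.card : ℝ) ≤ ∑ p ∈ E0 ×ˢ E0,
        (((E.image (· * (p.1⁻¹ * p.2))) \ E).card : ℝ) := by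
      have h3 := (Finset.card_le_card h1).trans Finset.card_biUnion_le
      have h4 : (Iout.card : ℝ) ≤ ∑ p ∈ E0 ×ˢ E0,
          ((((E.image (· * (p.1⁻¹ * p.2))) \ E).image (· * p.2⁻¹)).card : ℝ) := by
        exact_mod_cast h3
      refine h4.trans (Finset.sum_le_sum fun p _ => ?_)
      exact_mod_cast Finset.card_image_le
    refine h2.trans ?_
    have h5 : ∀ p ∈ E0 ×ˢ E0, (((E.image (· * (p.1⁻¹ * p.2))) \ E).card : ℝ) ≤ δ * E.card :=
      fun p hp => hE _ (Finset.mem_image_of_mem _ hp)
    refine (Finset.sum_le_card_nsmul _ _ _ h5).trans (le_of_eq ?_)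
    rw [Finset.card_product, nsmul_eq_mul]
    push_cast
    ring
  -- the sum
  have hsum : ∑ g ∈ I, h (E0.image (g * ·)) ≤ Iin.card * (r * n - d0) + Iout.card * (r * n) := by
    rw [← Finset.sum_filter_add_sum_filter_not I (fun g => E0.image (g * ·) ⊆ E)]
    refine Nat.add_le_add ?_ ?_
    · refine (Finset.sum_le_card_nsmul _ _ (r * n - d0) fun g hg => ?_).trans (le_of_eq ?_)
      · have := hhin g hg
        omega
      · rw [smul_eq_mul]
    · refine (Finset.sum_le_card_nsmul _ _ (r * n) fun g _ => hhall g).trans (le_of_eq ?_)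
      rw [smul_eq_mul]
  have hfinal : (n : ℝ) * h E ≤ E.card * (r * n - d0) + n ^ 2 * (δ * E.card) * (r * n) := by
    have h1 : (n : ℝ) * h E ≤ Iin.card * (r * n - d0) + Iout.card * (r * n) := by
      have := hsh.trans hsum
      have h2 : ((n * h E : ℕ) : ℝ) ≤
          ((Iin.card * (r * n - d0) + Iout.card * (r * n) : ℕ) : ℝ) := by exact_mod_cast this
      push_cast [Nat.cast_sub hd0r] at h2
      exact h2
    refine h1.trans (add_le_add ?_ ?_)
    · refine mul_le_mul_of_nonneg_right (by exact_mod_cast hIin_card) ?_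
      have : (d0 : ℝ) ≤ r * n := by exact_mod_cast hd0r
      linarith
    · exact mul_le_mul_of_nonneg_right hIout_card (by positivity)
  have hX3 : (nu (LinearMap.range T) - ε) * E.card ≤ Module.finrank k X := by
    have h1 : (r : ℝ) * E.card ≤ h E + Module.finrank k X := by exact_mod_cast hhE
    have h2 : (n : ℝ) ^ 2 * (δ * E.card) * (r * n) ≤ ε / 2 * E.card * n := by
      have h3 : (n : ℝ) ^ 2 * δ * r ≤ ε / 2 := by
        rw [hδ]
        have : (n : ℝ) ^ 2 * (ε / (2 * (r + 1) * n ^ 2)) * r = ε / 2 * (r / (r + 1)) := by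
          field_simp
        rw [this]
        have h4 : (r : ℝ) / (r + 1) ≤ 1 := by
          rw [div_le_one (by positivity)]
          linarith
        calc ε / 2 * ((r : ℝ) / (r + 1)) ≤ ε / 2 * 1 :=
              mul_le_mul_of_nonneg_left h4 (by positivity)
          _ = ε / 2 := mul_one _
      calc (n : ℝ) ^ 2 * (δ * E.card) * (r * n) = ((n : ℝ) ^ 2 * δ * r) * (E.card * n) := by ring
        _ ≤ ε / 2 * (E.card * n) := mul_le_mul_of_nonneg_right h3 (by positivity)
        _ = ε / 2 * E.card * n := by ring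
    have h5 : (E.card : ℝ) * ((nu (LinearMap.range T) - ε / 2) * n) ≤ E.card * d0 :=
      mul_le_mul_of_nonneg_left hd0 (by positivity)
    have h6 : (n : ℝ) * ((nu (LinearMap.range T) - ε) * E.card) ≤
        (n : ℝ) * Module.finrank k X := by nlinarith
    exact le_of_mul_le_mul_left h6 hnR
  refine hX3.trans ?_
  have hf : Module.Finite k
      (W k ι (E : Set Γ) ⊓ (W k κ ((E * B0.image (e0⁻¹ * ·) : Finset Γ) : Set Γ)).map
        (T.restrictScalars k) : Submodule k (ι → MonoidAlgebra k Γ)) := by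
    have := hWfin E
    exact Submodule.finiteDimensional_of_le inf_le_left
  exact_mod_cast Submodule.finrank_mono (le_inf hX1 hX2)

end

end Vale.Agent.P260.H838
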